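import Crest.Agent.X212.Kah60.Pt

/-! Cut-off functions of small capacity: subsolutions are locally constant. -/

open scoped Manifold ContDiff Topology InnerProductSpace
open Finset Filter MeasureTheory Set

set_option linter.unusedSectionVars false

noncomputable section
namespace Crest.Agent.X212.Kah60
open Wz78 Sob92 An

variable {E : Type} [NormedAddCommGroup E] [NormedSpace ℝ E] [FiniteDimensional ℝ E]
  [MeasurableSpace E] [BorelSpace E]
  {HM : Type} [TopologicalSpace HM] {I : ModelWithCorners ℝ E HM}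
  {M : Type} [TopologicalSpace M] [ChartedSpace HM M] [IsManifold I ∞ M]
  [MeasurableSpace M] {ι : Type} [Fintype ι]
  {N : Type} [NormedAddCommGroup N] [NormedSpace ℝ N]

variable (I) in
/-- Cut-off functions exhausting the set `U`. -/
structure Cut (U : Set M) (χ : ℕ → M → ℝ) : Prop where
  sm : ∀ n, Sm I (χ n)
  hcs : ∀ n, HasCompactSupport (χ n)
  supp : ∀ n, tsupport (χ n) ⊆ U
  one : ∀ x ∈ U, ∃ O ∈ 𝓝 x, ∀ᶠ n in atTop, ∀ y ∈ O, χ n y = 1

/-- The squared gradient. -/
def gr2 (F : Pre I M ι) (f : M → ℝ) : M → ℝ := fun x => ∑ a, F.D a f x * F.D a f x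

/-- The cut-offs have small capacity against the weight `f`. -/
def Small (F : Pre I M ι) (χ : ℕ → M → ℝ) (f : M → ℝ) : Prop :=
  Tendsto (fun n => ∫ x, gr2 F (χ n) x * f x ∂F.μ) atTop (𝓝 0)

theorem gr2_nonneg (F : Pre I M ι) (f : M → ℝ) (x : M) : 0 ≤ gr2 F f x :=
  sum_nonneg fun _ _ => mul_self_nonneg _

theorem sm_gr2 (F : Pre I M ι) {f : M → ℝ} (hf : Sm I f) : Sm I (gr2 F f) := fun x =>
  SA.sum _ fun a _ => SA.mul (F.sm_D hf a x) (F.sm_D hf a x)

theorem gr2_zero (F : Pre I M ι) {f : M → ℝ} {x : M} (hx : x ∉ tsupport f) : gr2 F f x = 0 :=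
  sum_eq_zero fun a _ => by rw [F.D_def, dv_eq_zero_of_notMem hx, mul_zero]

theorem tsupport_gr2 (F : Pre I M ι) (f : M → ℝ) : tsupport (gr2 F f) ⊆ tsupport f :=
  closure_minimal (fun _ hx => by_contra fun h => hx (gr2_zero F h)) (isClosed_tsupport f)

theorem Cut.univ [CompactSpace M] : Cut I (univ : Set M) fun _ _ => 1 where
  sm _ := contMDiff_const
  hcs _ := HasCompactSupport.of_compactSpace _
  supp _ := subset_univ _
  one _ _ := ⟨_, univ_mem, Eventually.of_forall fun _ _ _ => rfl⟩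

theorem Small.univ (F : Pre I M ι) (f : M → ℝ) : Small F (fun _ _ => 1) f := by
  simp [Small, gr2, Pre.D_def]

theorem sm_cut {U : Set M} {χ : M → ℝ} (hχ : Sm I χ) (hU : tsupport χ ⊆ U) {f : M → N}
    (hf : ∀ x ∈ U, SA I f x) : Sm I fun x => χ x • f x := fun x => by
  by_cases hx : x ∈ tsupport χ
  · exact SA.smul (hχ x) (hf x (hU hx))
  · refine (contMDiffAt_const (c := (0 : N))).congr_of_eventuallyEq ?_
    filter_upwards [notMem_tsupport_iff_eventuallyEq.1 hx] with y hy
    simp [hy]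

theorem tsupport_cut (χ : M → ℝ) (f : M → N) : tsupport (fun x => χ x • f x) ⊆ tsupport χ :=
  closure_mono fun x hx h => hx (by simp [h])

theorem hcs_of_sub {χ : M → ℝ} (hc : HasCompactSupport χ) {f : M → N}
    (h : tsupport f ⊆ tsupport χ) : HasCompactSupport f :=
  hc.of_isClosed_subset (isClosed_tsupport _) h

variable [T2Space M] [BorelSpace M]

/-- Bounded weights are small against cut-offs of vanishing capacity. -/
theorem Small.of_le {F : Pre I M ι} {U : Set M} {χ : ℕ → M → ℝ} (hχ : Cut I U χ) {f g : M → ℝ}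
    (hg : Small F χ g) (sf : ∀ x ∈ U, SA I f x) (sg : ∀ x ∈ U, SA I g x) {C : ℝ}
    (h0 : ∀ x ∈ U, 0 ≤ f x) (h : ∀ x ∈ U, f x ≤ C * g x) : Small F χ f := by
  have hs := fun n => (tsupport_gr2 F (χ n)).trans (hχ.supp n)
  have hi : ∀ n {f : M → ℝ}, (∀ x ∈ U, SA I f x) → Integrable (fun x => gr2 F (χ n) x * f x) F.μ :=
    fun n f sf => (sm_cut (sm_gr2 F (hχ.sm n)) (hs n) sf).continuous.integrable_of_hasCompactSupport
      (hcs_of_sub (hχ.hcs n) ((tsupport_cut _ _).trans (tsupport_gr2 F _)))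
  have hz : ∀ n x, x ∉ U → gr2 F (χ n) x = 0 := fun n x hx => gr2_zero F fun h => hx (hχ.supp n h)
  have := hg.const_mul C
  rw [mul_zero] at this
  refine squeeze_zero (fun n => integral_nonneg fun x => ?_) (fun n => ?_) this
  · by_cases hx : x ∈ U
    · exact mul_nonneg (gr2_nonneg F _ x) (h0 x hx)
    · simp [hz n x hx]
  · rw [← integral_const_mul]
    refine integral_mono (hi n sf) ((hi n sg).const_mul C) fun x => ?_
    by_cases hx : x ∈ U
    · have := mul_le_mul_of_nonneg_left (h x hx) (gr2_nonneg F (χ n) x)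
      simp only; linarith
    · simp [hz n x hx]

/-- Nonnegative functions with vanishing integrals that stabilise near `x` vanish at `x`. -/
theorem zero_of_tendsto {μ : Measure M} [μ.IsOpenPosMeasure] [IsFiniteMeasureOnCompacts μ]
    {G : ℕ → M → ℝ} (hG : ∀ n, Continuous (G n)) (hc : ∀ n, HasCompactSupport (G n))
    (h0 : ∀ n x, 0 ≤ G n x) {b : ℕ → ℝ} (hb : Tendsto b atTop (𝓝 0))
    (hle : ∀ n, ∫ x, G n x ∂μ ≤ b n) {g : M → ℝ} {x : M} {O : Set M} (hO : O ∈ 𝓝 x)
    (he : ∀ᶠ n in atTop, ∀ y ∈ O, G n y = g y) : g x = 0 := by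
  obtain ⟨O', h1, h2, h3⟩ := mem_nhds_iff.1 hO
  obtain ⟨m, hm⟩ := he.exists
  have hi := fun n => (hG n).integrable_of_hasCompactSupport (μ := μ) (hc n)
  have h4 : ∫ y in O', G m y ∂μ ≤ 0 := by
    refine ge_of_tendsto hb (he.mono fun n hn => le_trans ?_ (hle n))
    rw [setIntegral_congr_fun h2.measurableSet (g := G n) fun y hy => by
      rw [hm y (h1 hy), hn y (h1 hy)]]
    exact setIntegral_le_integral (hi n) (Eventually.of_forall (h0 n))
  by_contra h
  refine absurd h4 (not_le.2 ((setIntegral_pos_iff_support_of_nonneg_ae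
    (Eventually.of_forall (h0 m)) (hi m).integrableOn).2 ?_))
  exact ((hG m).isOpen_support.inter h2).measure_pos μ ⟨x, by
    simpa [hm x (h1 h3)] using h, h3⟩

variable {F : Fr I M ι} [F.μ.IsOpenPosMeasure] {U : Set M} {χ : ℕ → M → ℝ}

/-- A nonnegative subsolution that is small against the cut-offs has vanishing gradient. -/
theorem sub_zero (hχ : Cut I U χ) {h δ : M → ℝ} (sh : ∀ x ∈ U, SA I h x) (sδ : ∀ x ∈ U, SA I δ x)
    (h0 : ∀ x ∈ U, 0 ≤ h x) (δ0 : ∀ x ∈ U, 0 ≤ δ x)
    (hl : ∀ x ∈ U, lap0 I F.e F.dv h x ≤ -δ x * h x) (hs : Small F.toPre χ fun x => h x * h x)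
    {x : M} (hx : x ∈ U) : δ x * h x = 0 ∧ ∀ a, F.D a h x = 0 := by
  have fr := frm F
  have sw : ∀ n, Sm I fun y => χ n y * h y := fun n => sm_cut (hχ.sm n) (hχ.supp n) sh
  have tw : ∀ n, tsupport (fun y => χ n y * h y) ⊆ tsupport (χ n) := fun n => tsupport_cut _ _
  set G : ℕ → M → ℝ := fun n y => gr2 F.toPre (fun y => χ n y * h y) y
    + χ n y * (χ n y * (δ y * (h y * h y))) with hG
  set f : ℕ → ι → M → ℝ := fun n a y => χ n y * (χ n y * (h y * F.D a h y)) with hf
  have s2 : ∀ n, Sm I fun y => χ n y * (χ n y * (δ y * (h y * h y))) := fun n =>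
    sm_cut (hχ.sm n) (hχ.supp n) fun y hy =>
      SA.mul (hχ.sm n y) ((sδ y hy).mul ((sh y hy).mul (sh y hy)))
  have sG : ∀ n, Sm I (G n) := fun n => (sm_gr2 _ (sw n)).add (s2 n)
  have cG : ∀ n, HasCompactSupport (G n) := fun n =>
    (hcs_of_sub (hχ.hcs n) ((tsupport_gr2 _ _).trans (tw n))).add (hχ.hcs n).mul_right
  have sf : ∀ n a, Sm I (f n a) := fun n a => sm_cut (hχ.sm n) (hχ.supp n) fun y hy =>
    SA.mul (hχ.sm n y) ((sh y hy).mul (fr.sD a (sh y hy)))
  have cf : ∀ n a, HasCompactSupport (f n a) := fun n a => (hχ.hcs n).mul_right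
  have s3 : ∀ n, Sm I fun y => gr2 F.toPre (χ n) y * (h y * h y) := fun n =>
    sm_cut (sm_gr2 _ (hχ.sm n)) ((tsupport_gr2 _ _).trans (hχ.supp n)) fun y hy =>
      (sh y hy).mul (sh y hy)
  have c3 : ∀ n, HasCompactSupport fun y => gr2 F.toPre (χ n) y * (h y * h y) := fun n =>
    (hcs_of_sub (hχ.hcs n) (tsupport_gr2 _ _)).mul_right
  have z : ∀ n y, y ∉ U → χ n y = 0 := fun n y hy =>
    image_eq_zero_of_notMem_tsupport fun h => hy (hχ.supp n h)
  have G0 : ∀ n y, 0 ≤ G n y := fun n y => add_nonneg (gr2_nonneg _ _ _) (by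
    by_cases hy : y ∈ U
    · rw [← mul_assoc]
      exact mul_nonneg (mul_self_nonneg _) (mul_nonneg (δ0 y hy) (mul_self_nonneg _))
    · simp [z n y hy])
  have key : ∀ n y, G n y ≤ gr2 F.toPre (χ n) y * (h y * h y) + dvg I F.e F.dv (f n) y := by
    intro n y
    by_cases hy : y ∈ tsupport (χ n)
    · have hU := hχ.supp n hy
      have h1 := mul_le_mul_of_nonneg_left (hl y hU)
        (mul_nonneg (mul_self_nonneg (χ n y)) (h0 y hU))
      have e1 : ∀ a, dv I (F.e a) (f n a) y = 2 * χ n y * h y * (F.D a (χ n) y * F.D a h y)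
          + χ n y * χ n y * (F.D a h y * F.D a h y)
          + χ n y * χ n y * h y * dv I (F.e a) (dv I (F.e a) h) y := fun a => by
        simp only [hf, Pre.D_def]
        rw [dv_mul (hχ.sm n y) (SA.mul (hχ.sm n y) ((sh y hU).mul (fr.sD a (sh y hU)))),
          dv_mul (hχ.sm n y) ((sh y hU).mul (fr.sD a (sh y hU))),
          dv_mul (sh y hU) (fr.sD a (sh y hU))]
        ring
      have e2 : ∀ a, F.D a (fun y => χ n y * h y) y = F.D a (χ n) y * h y + χ n y * F.D a h y :=
        fun a => dv_mul (hχ.sm n y) (sh y hU)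
      have e3 : G n y - (gr2 F.toPre (χ n) y * (h y * h y) + dvg I F.e F.dv (f n) y)
          = χ n y * χ n y * h y * lap0 I F.e F.dv h y - χ n y * χ n y * h y * (-δ y * h y) := by
        simp only [hG, gr2, e2, dvg, lap0, e1]
        simp only [hf, Pre.D_def, mul_neg, mul_sum, sum_mul]
        rw [add_sub_right_comm, ← sum_add_distrib, ← sum_sub_distrib, ← sum_neg_distrib]
        congr 1
        · exact sum_congr rfl fun a _ => by ring
        · ring
      linarith
    · have e1 : ∀ a, dv I (F.e a) (f n a) y = 0 := fun a =>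
        dv_eq_zero_of_notMem fun h => hy (tsupport_cut _ _ h)
      simp only [dvg, e1]
      simp [hG, hf, gr2_zero _ hy, gr2_zero _ fun h => hy (tw n h),
        image_eq_zero_of_notMem_tsupport hy]
  obtain ⟨O, hO, he⟩ := hχ.one x hx
  have := zero_of_tendsto (μ := F.μ) (fun n => (sG n).continuous) cG G0 hs (fun n => by
      refine (integral_mono (integ (sG n) (cG n)) ((integ (s3 n) (c3 n)).add
        (integ_dvg (sf n) (cf n))) (key n)).trans ?_
      rw [integral_add' (integ (s3 n) (c3 n)) (integ_dvg (sf n) (cf n)),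
        integral_dvg (sf n) (cf n), add_zero])
    (g := fun y => gr2 F.toPre h y + δ y * (h y * h y)) (interior_mem_nhds.2 hO)
    (he.mono fun n hn y hy => by
      have h1 : (fun y => χ n y * h y) =ᶠ[𝓝 y] h := by
        filter_upwards [isOpen_interior.mem_nhds hy] with z hz
        rw [hn z (interior_subset hz), one_mul]
      simp only [hG, gr2, Pre.D_def, dv_congr h1, hn y (interior_subset hy), one_mul])
  have h1 := gr2_nonneg F.toPre h x
  have h2 := mul_nonneg (δ0 x hx) (mul_self_nonneg (h x))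
  refine ⟨?_, fun a => mul_self_eq_zero.1 ((sum_eq_zero_iff_of_nonneg
    fun a _ => mul_self_nonneg _).1 (show gr2 F.toPre h x = 0 by linarith) a (mem_univ a))⟩
  have h3 : δ x * h x * h x = 0 := by rw [mul_assoc]; linarith
  rcases mul_eq_zero.1 h3 with h4 | h4
  · exact h4
  · rw [h4, mul_zero]

omit [T2Space M] [BorelSpace M] in
/-- Functions killed by a spanning frame are locally constant. -/
theorem ev_const [I.Boundaryless] (F : Pre I M ι) {h : M → N} {x : M}
    (hd : ∀ᶠ y in 𝓝 x, MDifferentiableAt I 𝓘(ℝ, N) h y ∧ ∀ a, F.D a h y = 0) :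
    ∀ᶠ y in 𝓝 x, h y = h x := by
  have h1 : ∀ᶠ z in 𝓝 (extChartAt I x x),
      HasFDerivAt (h ∘ (extChartAt I x).symm) (0 : E →L[ℝ] N) z := by
    have h2 := (continuousAt_extChartAt_symm (I := I) x).eventually
      (by rw [extChartAt_to_inv]; exact hd)
    filter_upwards [h2, extChartAt_target_mem_nhds (I := I) x] with z hz hz'
    have h3 : mfderiv I 𝓘(ℝ, N) h ((extChartAt I x).symm z) = 0 := by
      refine ContinuousLinearMap.coe_injective (LinearMap.ext_on (F.span _) ?_)
      rintro _ ⟨a, rfl⟩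
      exact hz.2 a
    have h4 := hz.1.hasMFDerivAt
    rw [h3] at h4
    have h5 : MDifferentiableAt 𝓘(ℝ, E) I (extChartAt I x).symm z :=
      ((contMDiffOn_extChartAt_symm (n := 1) x).contMDiffAt
        ((isOpen_extChartAt_target x).mem_nhds hz')).mdifferentiableAt (by simp)
    have h6 := (h4.comp z h5.hasMFDerivAt).hasFDerivAt
    rw [ContinuousLinearMap.zero_comp] at h6
    exact h6
  obtain ⟨r, hr, hb⟩ := Metric.eventually_nhds_iff_ball.1 h1
  have h2 : ∀ z ∈ Metric.ball (extChartAt I x x) r, h ((extChartAt I x).symm z) = h x := by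
    intro z hz
    have := Metric.isOpen_ball.is_const_of_fderiv_eq_zero (𝕜 := ℝ) (convex_ball _ _).isPreconnected
      (f := h ∘ (extChartAt I x).symm)
      (fun z hz => (hb z hz).differentiableAt.differentiableWithinAt)
      (fun z hz => (hb z hz).fderiv) hz (Metric.mem_ball_self hr)
    simpa using this
  filter_upwards [(continuousAt_extChartAt (I := I) x).eventually (Metric.ball_mem_nhds _ hr),
    extChartAt_source_mem_nhds (I := I) x] with y h3 h4
  rw [← h2 _ h3, (extChartAt I x).left_inv h4]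

omit [T2Space M] [BorelSpace M] in
theorem const_on [I.Boundaryless] (F : Pre I M ι) {h : M → N} (hU : IsOpen U)
    (hc : IsPreconnected U) (hd : ∀ y ∈ U, MDifferentiableAt I 𝓘(ℝ, N) h y ∧ ∀ a, F.D a h y = 0)
    {x y : M} (hx : x ∈ U) (hy : y ∈ U) : h x = h y := by
  have h1 : ∀ z ∈ U, ∀ᶠ w in 𝓝 z, h w = h z := fun z hz =>
    ev_const F ((hU.eventually_mem hz).mono hd)
  have : PreconnectedSpace U := Subtype.preconnectedSpace hc
  exact ((IsLocallyConstant.iff_eventually_eq fun z : U => h z).2 fun z =>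
    continuousAt_subtype_val.eventually (h1 z z.2)).apply_eq_of_preconnectedSpace ⟨x, hx⟩ ⟨y, hy⟩

/-- A subsolution as above vanishes if `δ` is positive somewhere or its infimum is zero. -/
theorem sub_zero' [I.Boundaryless] (hχ : Cut I U χ) (hU : IsOpen U) (hc : IsPreconnected U)
    {h δ : M → ℝ} (sh : ∀ x ∈ U, SA I h x) (sδ : ∀ x ∈ U, SA I δ x)
    (h0 : ∀ x ∈ U, 0 ≤ h x) (δ0 : ∀ x ∈ U, 0 ≤ δ x)
    (hl : ∀ x ∈ U, lap0 I F.e F.dv h x ≤ -δ x * h x) (hs : Small F.toPre χ fun x => h x * h x)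
    (hz : (∃ x ∈ U, δ x ≠ 0) ∨ ∀ ε > 0, ∃ x ∈ U, h x < ε) {x : M} (hx : x ∈ U) : h x = 0 := by
  have h1 := fun y hy => sub_zero hχ sh sδ h0 δ0 hl hs (x := y) hy
  have h2 : ∀ y ∈ U, h x = h y := fun y hy =>
    const_on F.toPre hU hc (fun y hy => ⟨(sh y hy).md, (h1 y hy).2⟩) hx hy
  rcases hz with ⟨y, hy, h3⟩ | h3
  · rw [h2 y hy]; exact (mul_eq_zero.1 (h1 y hy).1).resolve_left h3
  · refine le_antisymm (le_of_forall_pos_le_add fun ε hε => ?_) (h0 x hx)
    obtain ⟨y, hy, h4⟩ := h3 ε hε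
    rw [h2 y hy]; linarith

end Crest.Agent.X212.Kah60
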