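import Crest.Agent.X212.Wz78.Int

/-! Pointwise algebra of pure spinors for an almost Hermitian structure in a spanning frame. -/

open scoped InnerProductSpace
open Finset

set_option linter.unusedSectionVars false

noncomputable section
namespace Crest.Agent.X212.Kah60
open Wz78

variable {ι : Type*} [Fintype ι] {V : Type*} [NormedAddCommGroup V] [InnerProductSpace ℝ V]

/-- The matrix of an orthogonal complex structure on the range of `P`. -/
structure KP (P ω : ι → ι → ℝ) : Prop extends Pr P where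
  skew : ∀ a b, ω a b = -ω b a
  sq : ∀ a b, ∑ k, ω a k * ω k b = -P a b
  proj : ∀ a b, ∑ k, P a k * ω k b = ω a b

/-- A complex Clifford module with a Hermitian inner product. -/
structure CI (P : ι → ι → ℝ) (p i : V →L[ℝ] V) (ρ : ι → V →L[ℝ] V) : Prop extends Cl P p ρ where
  sρ : ∀ a, Skew (ρ a)
  si : Skew i
  comm : ∀ a v, i (ρ a v) = ρ a (i v)
  ii : ∀ v, p v = v → i (i v) = -v
  pi : ∀ v, p v = v → p (i v) = i v
  le : ∀ v, ‖i v‖ ≤ ‖v‖

/-- `ξ (J v) = i ξ v`. -/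
def Hol (ω : ι → ι → ℝ) (i : V →L[ℝ] V) (ξ : ι → V) : Prop := ∀ a, ∑ b, ω a b • ξ b = i (ξ a)

/-- Pure spinors: `ρ (J v) u = i ρ v u`. -/
def Pure (ω : ι → ι → ℝ) (ρ : ι → V →L[ℝ] V) (p i : V →L[ℝ] V) (u : V) : Prop :=
  p u = u ∧ Hol ω i fun a => ρ a u

variable {P ω : ι → ι → ℝ} {p i : V →L[ℝ] V} {ρ : ι → V →L[ℝ] V} {u v : V} {ξ : ι → V}

theorem KP.neg (h : KP P ω) : KP P fun a b => -ω a b where
  toPr := h.toPr
  skew a b := by rw [h.skew a b]
  sq a b := by simp only [neg_mul_neg, h.sq]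
  proj a b := by simp only [mul_neg, sum_neg_distrib, h.proj]

theorem KP.proj' (h : KP P ω) (a b : ι) : ∑ k, ω a k * P k b = ω a b := by
  rw [h.skew a b, ← h.proj b a, ← sum_neg_distrib]
  exact sum_congr rfl fun k _ => by rw [h.skew a k, h.symm k b]; ring

theorem KP.sq' (h : KP P ω) (b c : ι) : ∑ a, ω a b * ω a c = P b c := by
  rw [← neg_neg (P b c), ← h.sq, ← sum_neg_distrib]
  exact sum_congr rfl fun a _ => by rw [h.skew a b]; ring

/-- `ω` is an isometry on projected vectors. -/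
theorem KP.iso (h : KP P ω) (r s : ι → ℝ) (hr : ∀ a, ∑ b, P a b * r b = r a) :
    ∑ a, (∑ b, ω a b * s b) * (∑ b, ω a b * r b) = ∑ a, s a * r a := by
  calc _ = ∑ b, ∑ c, (∑ a, ω a b * ω a c) * (s b * r c) := by
        simp only [sum_mul_sum]
        simp only [sum_mul]
        rw [sum_comm]
        refine sum_congr rfl fun b _ => ?_
        rw [sum_comm]
        exact sum_congr rfl fun c _ => sum_congr rfl fun a _ => by ring
    _ = _ := sum_congr rfl fun b _ => by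
        rw [← hr b, mul_sum]
        exact sum_congr rfl fun c _ => by rw [h.sq']; ring

theorem CI.neg (h : CI P p i ρ) : CI P p (-i) ρ where
  toCl := h.toCl
  sρ := h.sρ
  si v w := by simp only [neg_apply, inner_neg_left, inner_neg_right, h.si v w]
  comm a v := by simp only [neg_apply, h.comm, map_neg]
  ii v hv := by simp only [neg_apply, map_neg, neg_neg, h.ii v hv]
  pi v hv := by simp only [neg_apply, map_neg, h.pi v hv]
  le v := by simpa using h.le v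

theorem Hol.neg (h : Hol ω i ξ) : Hol (fun a b => -ω a b) (-i) ξ := fun a => by
  simp only [neg_smul, sum_neg_distrib, h a, neg_apply]

theorem Pure.eq (hu : Pure ω ρ p i u) (a : ι) : ∑ b, ω a b • ρ b u = i (ρ a u) := hu.2 a

theorem Pure.zero : Pure ω ρ p i 0 := ⟨map_zero _, fun a => by simp⟩

theorem Pure.add (hu : Pure ω ρ p i u) (hv : Pure ω ρ p i v) : Pure ω ρ p i (u + v) :=
  ⟨by rw [map_add, hu.1, hv.1], fun a => by
    simp only [map_add, smul_add, sum_add_distrib, hu.2 a, hv.2 a]⟩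

theorem Pure.smul (r : ℝ) (hu : Pure ω ρ p i u) : Pure ω ρ p i (r • u) :=
  ⟨by rw [map_smul, hu.1], fun a => by
    simp only [map_smul, smul_comm _ r, ← smul_sum, hu.2 a]⟩

theorem Pure.neg (hu : Pure ω ρ p i u) : Pure ω ρ p i (-u) := by
  simpa using hu.smul (-1)

theorem Pure.sub (hu : Pure ω ρ p i u) (hv : Pure ω ρ p i v) : Pure ω ρ p i (u - v) := by
  rw [sub_eq_add_neg]; exact hu.add hv.neg

theorem Pure.sum {κ : Type*} (s : Finset κ) {u : κ → V} (hu : ∀ k ∈ s, Pure ω ρ p i (u k)) :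
    Pure ω ρ p i (∑ k ∈ s, u k) :=
  Finset.sum_induction u _ (fun _ _ => Pure.add) Pure.zero hu

/-- Operators commuting with `p`, `ρ`, `i` up to a sign keep pure spinors pure. -/
theorem Pure.map (hu : Pure ω ρ p i u) {T i' : V →L[ℝ] V} (hp : p (T u) = T u)
    (hρ : ∀ a, ρ a (T u) = T (ρ a u)) (hi : ∀ a, T (i (ρ a u)) = i' (T (ρ a u))) :
    Pure ω ρ p i' (T u) :=
  ⟨hp, fun a => by simp only [hρ, ← map_smul T, ← map_sum T, hu.eq a, hi]⟩

theorem CI.pρ (h : CI P p i ρ) (a : ι) (v : V) : p (ρ a v) = ρ a v :=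
  congrArg (fun T : V →L[ℝ] V => T v) (h.pl a)

theorem CI.pure_i (h : CI P p i ρ) (hu : Pure ω ρ p i u) : Pure ω ρ p i (i u) :=
  hu.map (h.pi u hu.1) (fun a => (h.comm a u).symm) fun _ => rfl

theorem CI.pure_i' (h : CI P p i ρ) (hu : Pure ω ρ p (-i) u) : Pure ω ρ p (-i) (i u) := by
  simpa using (h.neg.pure_i hu).neg

theorem CI.anti (h : CI P p i ρ) (a b : ι) (hv : p v = v) (u : V) :
    ⟪ρ a u, ρ b v⟫_ℝ + ⟪ρ b u, ρ a v⟫_ℝ = 2 * P a b * ⟪u, v⟫_ℝ := by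
  have := congrArg (fun T : V →L[ℝ] V => ⟪u, T v⟫_ℝ) (h.rel a b)
  simp only [add_apply, mul_apply_eq_comp, inner_add_right,
    smul_apply, hv, real_inner_smul_right] at this
  rw [h.sρ a, h.sρ b]; linarith

theorem CI.projρ (h : CI P p i ρ) (a : ι) (v : V) : ∑ b, P a b • ρ b v = ρ a v := by
  rw [← h.proj a, _root_.sum_apply]; rfl

/-- Compression of `ρ a * ρ b` to the pure spinors. -/
theorem CI.compress (h : CI P p i ρ) (k : KP P ω) (hu : Pure ω ρ p i u) (hv : Pure ω ρ p i v)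
    (a b : ι) : ⟪ρ a u, ρ b v⟫_ℝ = P a b * ⟪u, v⟫_ℝ - ω a b * ⟪i u, v⟫_ℝ := by
  have h1 := h.anti a b hv.1 u
  have h2 : ⟪ρ a u, ρ b v⟫_ℝ - ⟪ρ b u, ρ a v⟫_ℝ = -2 * ω a b * ⟪i u, v⟫_ℝ := by
    have e1 : ∑ k, ω a k * ⟪ρ k (i u), ρ b v⟫_ℝ = -⟪ρ a u, ρ b v⟫_ℝ := by
      simp only [← real_inner_smul_left, ← sum_inner]
      rw [(h.pure_i hu).eq a, ← h.comm, h.ii _ (h.pρ a u), inner_neg_left]
    have e2 : ∑ k, ω a k * ⟪ρ b (i u), ρ k v⟫_ℝ = ⟪ρ b u, ρ a v⟫_ℝ := by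
      simp only [← real_inner_smul_right, ← inner_sum]
      rw [hv.eq a, ← h.comm, h.si, h.ii _ (h.pρ a v), inner_neg_right, neg_neg]
    have e3 : ∑ k, ω a k * (2 * P k b * ⟪i u, v⟫_ℝ) = 2 * ω a b * ⟪i u, v⟫_ℝ := by
      rw [← k.proj' a b, mul_sum, sum_mul]
      exact sum_congr rfl fun _ _ => by ring
    simp only [← h.anti _ b hv.1 (i u), mul_add, sum_add_distrib, e1, e2] at e3
    linarith
  linarith

/-- Pure spinors of opposite types are orthogonal. -/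
theorem CI.orth (h : CI P p i ρ) (k : KP P ω) (hP : ∑ a, P a a ≠ 0) (hu : Pure ω ρ p i u)
    (hv : Pure ω ρ p (-i) v) : ⟪u, v⟫_ℝ = 0 := by
  have e0 : ∑ a, ⟪ρ a u, ρ a v⟫_ℝ = (∑ a, P a a) * ⟪u, v⟫_ℝ := by
    rw [sum_mul]
    exact sum_congr rfl fun a _ => by have := h.anti a a hv.1 u; linarith
  have e1 : ∑ a, ⟪∑ b, ω a b • ρ b u, ∑ b, ω a b • ρ b v⟫_ℝ = -∑ a, ⟪ρ a u, ρ a v⟫_ℝ := by
    rw [← sum_neg_distrib]
    refine sum_congr rfl fun a _ => ?_
    rw [hu.eq a, hv.eq a, h.si, neg_apply, map_neg, h.ii _ (h.pρ a v), neg_neg]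
  have e2 : ∑ a, ⟪∑ b, ω a b • ρ b u, ∑ b, ω a b • ρ b v⟫_ℝ = ∑ a, ⟪ρ a u, ρ a v⟫_ℝ := by
    calc _ = ∑ b, ∑ c, (∑ a, ω a b * ω a c) * ⟪ρ b u, ρ c v⟫_ℝ := by
          simp only [sum_inner, real_inner_smul_left]
          simp only [inner_sum, real_inner_smul_right, sum_mul, mul_sum]
          rw [sum_comm]
          refine sum_congr rfl fun b _ => ?_
          rw [sum_comm]
          exact sum_congr rfl fun c _ => sum_congr rfl fun a _ => by ring
      _ = _ := sum_congr rfl fun b _ => by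
          simp only [k.sq', ← real_inner_smul_right, ← inner_sum, h.projρ]
  have : (∑ a, P a a) * ⟪u, v⟫_ℝ = 0 := by linarith
  exact (mul_eq_zero.1 this).resolve_left hP

/-- A pure valued one-form in the kernel of Clifford multiplication is complex linear. -/
theorem CI.hol (h : CI P p i ρ) (k : KP P ω) (hξ : ∀ a, Pure ω ρ p i (ξ a))
    (hP : ∀ a, ∑ b, P a b • ξ b = ξ a) (h0 : ∑ a, ρ a (ξ a) = 0) : Hol ω i ξ := by
  intro b
  set η := ξ b + i (∑ a, ω b a • ξ a) with hη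
  have hs : Pure ω ρ p i (∑ a, ω b a • ξ a) := Pure.sum _ fun a _ => (hξ a).smul _
  have hp : Pure ω ρ p i η := (hξ b).add (h.pure_i hs)
  have e : ⟪η, η⟫_ℝ = ⟪∑ a, ρ a (ξ a), ρ b η⟫_ℝ := by
    simp only [sum_inner, fun a => h.compress k (hξ a) hp a b, sum_sub_distrib]
    nth_rewrite 1 [hη]
    rw [inner_add_left, ← hP b, map_sum, sum_inner, sum_inner, sub_eq_add_neg, ← sum_neg_distrib]
    congr 1 <;> refine sum_congr rfl fun a _ => ?_
    · rw [real_inner_smul_left, k.symm]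
    · rw [map_smul, real_inner_smul_left, k.skew b a]; ring
  rw [h0, inner_zero_left, inner_self_eq_zero] at e
  have e2 := congrArg i e
  rw [hη, map_add, h.ii _ hs.1, map_zero] at e2
  exact (sub_eq_zero.1 (by rw [sub_eq_add_neg]; exact e2)).symm

/-- Conversely, complex linear pure valued one-forms are killed by Clifford multiplication. -/
theorem CI.cl_of_hol (h : CI P p i ρ) (k : KP P ω) (hξ : ∀ a, Pure ω ρ p i (ξ a))
    (hP : ∀ a, ∑ b, P a b • ξ b = ξ a) (hh : Hol ω i ξ) : ∑ a, ρ a (ξ a) = 0 := by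
  rw [← inner_self_eq_zero (𝕜 := ℝ), inner_sum]
  refine sum_eq_zero fun b _ => ?_
  simp only [sum_inner, fun a => h.compress k (hξ a) (hξ b) a b, sum_sub_distrib]
  have e1 : ∑ a, P a b * ⟪ξ a, ξ b⟫_ℝ = ⟪ξ b, ξ b⟫_ℝ := by
    nth_rewrite 2 [← hP b]
    rw [sum_inner]
    exact sum_congr rfl fun a _ => by rw [real_inner_smul_left, k.symm]
  have e2 : ∑ a, ω a b * ⟪i (ξ a), ξ b⟫_ℝ = ⟪ξ b, ξ b⟫_ℝ := by
    have := congrArg (fun v => ⟪i v, ξ b⟫_ℝ) (hh b)
    simp only [map_sum, map_smul, sum_inner, real_inner_smul_left, h.ii _ (hξ b).1,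
      inner_neg_left] at this
    rw [← neg_neg ⟪ξ b, ξ b⟫_ℝ, ← this, ← sum_neg_distrib]
    exact sum_congr rfl fun a _ => by rw [k.skew a b]; ring
  rw [e1, e2, sub_self]

/-- Refined Kato inequality with a weight. -/
theorem Hol.kato (hh : Hol ω i ξ) (k : KP P ω) (si : Skew i) (le : ∀ v, ‖i v‖ ≤ ‖v‖)
    (hP : ∀ a, ∑ b, P a b • ξ b = ξ a) (s : ι → ℝ) (hs : ∀ a, ∑ b, P a b * s b = s a) (v : V) :
    0 ≤ 2 * ∑ a, ⟪ξ a, ξ a⟫_ℝ + 4 * ∑ a, s a * ⟪ξ a, v⟫_ℝ + (∑ a, s a * s a) * ⟪v, v⟫_ℝ := by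
  set t : ι → ℝ := fun a => ∑ b, ω a b * s b with ht
  have hr : ∀ a, ∑ b, P a b * ⟪ξ b, v⟫_ℝ = ⟪ξ a, v⟫_ℝ := fun a => by
    simp only [← real_inner_smul_left, ← sum_inner, hP]
  have e1 : ∀ a, ⟪ξ a, i v⟫_ℝ = -∑ b, ω a b * ⟪ξ b, v⟫_ℝ := fun a => by
    simp only [← real_inner_smul_left, ← sum_inner, hh a, si (ξ a), neg_neg]
  have e2 : ∑ a, t a * ⟪ξ a, i v⟫_ℝ = -∑ a, s a * ⟪ξ a, v⟫_ℝ := by
    simp only [e1, mul_neg, sum_neg_distrib, ht, k.iso _ s hr]
  have e3 : ∑ a, t a * t a = ∑ a, s a * s a := k.iso s s hs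
  have e4 : ⟪i v, i v⟫_ℝ ≤ ⟪v, v⟫_ℝ := by
    simp only [real_inner_self_eq_norm_sq]
    exact pow_le_pow_left₀ (norm_nonneg _) (le v) 2
  have e5 : ⟪v, i v⟫_ℝ = 0 := by rw [real_inner_comm, si.self]
  have e6 : ⟪i v, v⟫_ℝ = 0 := si.self v
  have e7 : ∀ a, ⟪(2 : ℝ) • ξ a + s a • v - t a • i v, (2 : ℝ) • ξ a + s a • v - t a • i v⟫_ℝ
      = 4 * ⟪ξ a, ξ a⟫_ℝ + 4 * (s a * ⟪ξ a, v⟫_ℝ) - 4 * (t a * ⟪ξ a, i v⟫_ℝ)
        + s a * s a * ⟪v, v⟫_ℝ + t a * t a * ⟪i v, i v⟫_ℝ := fun a => by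
    simp only [inner_sub_left, inner_sub_right, inner_add_left, inner_add_right,
      real_inner_smul_left, real_inner_smul_right, e5, e6, real_inner_comm (ξ a) v,
      real_inner_comm (ξ a) (i v)]
    ring
  have e8 : 0 ≤ ∑ a, ⟪(2 : ℝ) • ξ a + s a • v - t a • i v,
      (2 : ℝ) • ξ a + s a • v - t a • i v⟫_ℝ := sum_nonneg fun a _ => real_inner_self_nonneg
  simp only [e7, sum_add_distrib, sum_sub_distrib, ← mul_sum, ← sum_mul, e2, e3] at e8
  have e9 : 0 ≤ ∑ a, s a * s a := sum_nonneg fun a _ => mul_self_nonneg _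
  nlinarith [mul_le_mul_of_nonneg_left e4 e9]

/-- The spin lift of `ω` acts on pure spinors as a multiple of `i`. -/
theorem CI.spin_pure (h : CI P p i ρ) (hu : Pure ω ρ p i u) :
    spin ρ ω u = -((∑ a, P a a) / 4) • i u := by
  have e : ∀ m, ∑ l, ω m l • ρ m (ρ l u) = -P m m • i u := fun m => by
    simp only [← map_smul (ρ m), ← map_sum (ρ m)]
    rw [hu.eq m, h.comm]
    have := congrArg (fun T : V →L[ℝ] V => T (i u)) (h.rel m m)
    simp only [add_apply, mul_apply_eq_comp,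
      smul_apply, h.pi u hu.1] at this
    rw [← two_smul ℝ, show -2 * P m m = 2 * -P m m by ring, mul_smul] at this
    exact smul_right_injective V two_ne_zero this
  simp only [spin, smul_apply, _root_.sum_apply,
    mul_apply_eq_comp, e, ← sum_smul, smul_smul, sum_neg_distrib]
  congr 1; ring

/-- In dimension four: if the spin lift of `ω` kills `ρ u`, eigenvectors are pure. -/
theorem CI.pure_of_spin (h : CI P p i ρ) (k : KP P ω) (hp : p u = u)
    (h0 : ∀ c, spin ρ ω (ρ c u) = 0) (he : spin ρ ω u = -i u) : Pure ω ρ p i u :=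
  ⟨hp, fun c => by
    have := congrArg (fun T : V →L[ℝ] V => T u) (h.spin_comm k.skew k.proj' c)
    simp only [sub_apply, mul_apply_eq_comp, h0, he,
      _root_.sum_apply, smul_apply, map_neg, zero_sub,
      neg_neg] at this
    rw [← this, h.comm]⟩

theorem CI.i_spin (h : CI P p i ρ) (ω : ι → ι → ℝ) (v : V) : i (spin ρ ω v) = spin ρ ω (i v) := by
  simp only [spin, smul_apply, _root_.sum_apply,
    mul_apply_eq_comp, map_smul, map_sum, h.comm]

theorem CI.p_spin' (h : CI P p i ρ) (ω : ι → ι → ℝ) (v : V) : p (spin ρ ω v) = spin ρ ω v :=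
  congrArg (fun T : V →L[ℝ] V => T v) (h.p_spin ω)

/-- The pure part `(u + i s u) / 2` of a positive spinor. -/
def part (ω : ι → ι → ℝ) (ρ : ι → V →L[ℝ] V) (i : V →L[ℝ] V) : V →L[ℝ] V :=
  (1 / 2 : ℝ) • (1 + i * spin ρ ω)

theorem part_add (u : V) : part ω ρ i u + part ω ρ (-i) u = u := by
  simp only [part, smul_apply, add_apply,
    mul_apply_eq_comp, one_apply_eq_self, neg_apply]
  module

/-- Splitting of positive spinors: `s = spin ρ ω` kills `ρ u`, `ρ (s u)` and `s² u = -u`. -/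
theorem CI.pure_part (h : CI P p i ρ) (k : KP P ω) (hp : p u = u)
    (h0 : ∀ c, spin ρ ω (ρ c u) = 0) (h1 : ∀ c, spin ρ ω (ρ c (spin ρ ω u)) = 0)
    (h2 : spin ρ ω (spin ρ ω u) = -u) : Pure ω ρ p i (part ω ρ i u) := by
  have e : part ω ρ i u = (1 / 2 : ℝ) • (u + i (spin ρ ω u)) := rfl
  refine h.pure_of_spin k ?_ (fun c => ?_) ?_
  · rw [e, map_smul, map_add, hp, h.pi _ (h.p_spin' ω u)]
  · rw [e, map_smul, map_add, ← h.comm, map_smul, map_add, ← h.i_spin, h0, h1]; simp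
  · rw [e, map_smul, map_smul, map_add, map_add, ← h.i_spin, h2, h.ii _ (h.p_spin' ω u), map_neg]
    module

end Crest.Agent.X212.Kah60
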