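import Crest.Agent.X212.Kah60.Alg

/-! Kaehler data in a spanning frame: pure spinors are preserved by the connection, harmonic pure
spinors are holomorphic, Bochner-Kodaira identity, the subharmonic weight inequality. -/

open scoped Manifold ContDiff Topology InnerProductSpace
open Finset Filter

set_option linter.unusedSectionVars false

noncomputable section
namespace Crest.Agent.X212.Kah60
open Wz78 Sob92

variable {E H : Type*} [NormedAddCommGroup E] [NormedSpace ℝ E] [TopologicalSpace H]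
  {I : ModelWithCorners ℝ E H} {M : Type*} [TopologicalSpace M] [ChartedSpace H M]
  {V : Type*} [NormedAddCommGroup V] [InnerProductSpace ℝ V]
  {ι : Type*} [Fintype ι] [IsManifold I 1 M]

section defs
variable (I) (e : ι → (x : M) → TangentSpace I x)

/-- A Kaehler form: a parallel orthogonal complex structure. -/
structure Kah (P : ι → ι → M → ℝ) (Γ : ι → ι → ι → M → ℝ) (om : ι → ι → M → ℝ) : Prop where
  sm : ∀ a b x, SA I (om a b) x
  kp : ∀ x, KP (fun a b => P a b x) fun a b => om a b x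
  par : ∀ c a b x, dv I (e c) (om a b) x = ∑ k, Γ c a k x * om k b x + ∑ k, Γ c b k x * om a k x

/-- A unitary connection for the complex structure `i`. -/
structure UC (P : ι → ι → M → ℝ) (i : M → V →L[ℝ] V) (A : ι → M → V →L[ℝ] V) : Prop
    extends Con I P A where
  sA : ∀ a x, Skew (A a x)
  si : ∀ x, SA I i x
  ski : ∀ x, Skew (i x)
  le : ∀ x v, ‖i x v‖ ≤ ‖v‖
  pari : ∀ a x, dv I (e a) i x + (A a x * i x - i x * A a x) = 0

/-- Hermitian Clifford data with a compatible unitary connection. -/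
structure HC (P : ι → ι → M → ℝ) (Γ : ι → ι → ι → M → ℝ) (p i : M → V →L[ℝ] V)
    (ρ A : ι → M → V →L[ℝ] V) : Prop extends CC I e P Γ p ρ A where
  sA : ∀ a x, Skew (A a x)
  si : ∀ x, SA I i x
  ci : ∀ x, CI (fun a b => P a b x) (p x) (i x) fun a => ρ a x
  pari : ∀ a x, dv I (e a) i x + (A a x * i x - i x * A a x) = 0

end defs

/-- Pure at a point. -/
abbrev PureAt (om : ι → ι → M → ℝ) (ρ : ι → M → V →L[ℝ] V) (p i : M → V →L[ℝ] V) (x : M) (v : V) :
    Prop := Pure (fun a b => om a b x) (fun a => ρ a x) (p x) (i x) v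

variable {e : ι → (x : M) → TangentSpace I x} {P om : ι → ι → M → ℝ} {g : ι → M → ℝ}
  {c Γ : ι → ι → ι → M → ℝ} {A ρ : ι → M → V →L[ℝ] V} {p i : M → V →L[ℝ] V} {u w : M → V} {x : M}

theorem HC.uc (C : HC I e P Γ p i ρ A) : UC I e P i A where
  toCon := C.toCon
  sA := C.sA
  si := C.si
  ski x := (C.ci x).si
  le x := (C.ci x).le
  pari := C.pari

theorem UC.neg (C : UC I e P i A) : UC I e P (fun x => -i x) A where
  toCon := C.toCon
  sA := C.sA
  si x := (C.si x).neg
  ski x v w := by simp only [neg_apply, inner_neg_left, inner_neg_right, C.ski x v w]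
  le x v := by simpa using C.le x v
  pari a x := by
    have h : dv I (e a) (fun x => -i x) x = -dv I (e a) i x := dv_neg i x
    rw [h, ← neg_eq_zero, ← C.pari a x]; noncomm_ring

theorem HC.neg (C : HC I e P Γ p i ρ A) : HC I e P Γ p (fun x => -i x) ρ A where
  toCC := C.toCC
  sA := C.sA
  si := C.uc.neg.si
  ci x := (C.ci x).neg
  pari := C.uc.neg.pari

theorem Kah.neg (K : Kah I e P Γ om) : Kah I e P Γ fun a b x => -om a b x where
  sm a b x := (K.sm a b x).neg
  kp x := (K.kp x).neg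
  par c a b x := by
    have h : dv I (e c) (fun x => -om a b x) x = -dv I (e c) (om a b) x := dv_neg (om a b) x
    simp only [h, K.par, mul_neg, sum_neg_distrib]; ring

theorem nab_app1 (a : ι) {T : M → V →L[ℝ] V} (hT : SA I T x)
    (hu : MDifferentiableAt I 𝓘(ℝ, V) u x) : nab I e A a (fun y => T y (u y)) x
      = (dv I (e a) T x + (A a x * T x - T x * A a x)) (u x) + T x (nab I e A a u x) := by
  simp only [nab, dv_app hT.md hu, map_add, add_apply, sub_apply, mul_apply_eq_comp]
  abel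

theorem UC.nab_i (C : UC I e P i A) (a : ι) (hu : MDifferentiableAt I 𝓘(ℝ, V) u x) :
    nab I e A a (fun y => i y (u y)) x = i x (nab I e A a u x) := by
  rw [nab_app1 a (C.si x) hu, C.pari]; simp

/-- Covariant derivative of the relation `∑ om a b ξ b = i ξ a`. -/
theorem Kah.hol_der (K : Kah I e P Γ om) (L : LC I e P c Γ) (F : Frm I e P c) (C : UC I e P i A)
    {ξ : ι → M → V} (hs : ∀ a, MDifferentiableAt I 𝓘(ℝ, V) (ξ a) x)
    (hP : ∀ a, ∑ b, P a b x • ξ b x = ξ a x)
    (hh : ∀ᶠ y in 𝓝 x, Hol (fun a b => om a b y) (i y) fun a => ξ a y) (d : ι) :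
    Hol (fun a b => om a b x) (i x) fun a => nab I e A d (ξ a) x - ∑ k, Γ d a k x • ξ k x := by
  intro a
  have h0 := hh.self_of_nhds
  have h1 : nab I e A d (fun y => ∑ b, om a b y • ξ b y) x = i x (nab I e A d (ξ a) x) := by
    rw [← C.nab_i d (hs a)]
    exact nab_congr d (hh.mono fun y hy => hy a)
  have h2 : nab I e A d (fun y => ∑ b, om a b y • ξ b y) x
      = ∑ b, (dv I (e d) (om a b) x • ξ b x + om a b x • nab I e A d (ξ b) x) := by
    have := dv_sum (e := e d) univ (u := fun b y => om a b y • ξ b y)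
      fun b _ => (K.sm a b x).md.smul (hs b)
    simp only [nab, this, fun b => dv_smul (e := e d) (K.sm a b x).md (hs b), map_sum, map_smul,
      smul_add, sum_add_distrib]
    abel
  have h3 := F.dP_zero d x (T := fun b k => om a k x • ξ b x)
    (fun b k => by simp only [smul_comm (P b _ x), ← smul_sum, hP])
    fun b k => by
      simp only [smul_smul, ← sum_smul]
      rw [← (K.kp x).proj' a k]
      congr 1
      exact sum_congr rfl fun m _ => by rw [(F.pr x).symm k m, mul_comm]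
  have h4 : ∑ b, (∑ k, Γ d a k x * om k b x) • ξ b x = i x (∑ k, Γ d a k x • ξ k x) := by
    simp only [sum_smul, map_sum, map_smul, ← h0 _, smul_sum, mul_smul]
    exact sum_comm
  have h5 : ∑ b, om a b x • ∑ k, Γ d b k x • ξ k x = ∑ b, ∑ k, Γ d k b x • om a k x • ξ b x := by
    simp only [smul_sum]
    rw [sum_comm]
    exact sum_congr rfl fun b _ => sum_congr rfl fun k _ => smul_comm _ _ _
  simp only [L.met, add_smul, sum_add_distrib] at h3
  simp only [h2, K.par, add_smul, sum_add_distrib, h4] at h1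
  simp only [smul_sub, sum_sub_distrib, map_sub, h5, ← h1, eq_neg_of_add_eq_zero_right h3,
    sum_smul, mul_smul]
  abel

/-- The covariant derivative of a pure section is pure. -/
theorem Kah.pure_nab1 (K : Kah I e P Γ om) (L : LC I e P c Γ) (F : Frm I e P c)
    (C : HC I e P Γ p i ρ A) (hu : MDifferentiableAt I 𝓘(ℝ, V) u x)
    (hp : ∀ᶠ y in 𝓝 x, PureAt om ρ p i y (u y)) (d : ι) :
    PureAt om ρ p i x (nab I e A d u x) := by
  refine ⟨?_, ?_⟩
  · have := nab_app1 (e := e) (A := A) d (C.sp x) hu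
    rw [C.par, nab_congr (v := u) d (hp.mono fun y hy => hy.1)] at this
    simpa using this.symm
  · have := K.hol_der L F C.uc (ξ := fun a y => ρ a y (u y))
      (fun a => (C.sρ a x).md.clm_apply hu) (fun a => (C.ci x).projρ a _)
      (hp.mono fun y hy => hy.2) d
    simpa only [nab_app1 d (C.sρ _ x) hu, C.comp, _root_.sum_apply, smul_apply,
      add_sub_cancel_left] using this

theorem Kah.pure_nab (K : Kah I e P Γ om) (L : LC I e P c Γ) (F : Frm I e P c)
    (C : HC I e P Γ p i ρ A) (hu : SA I u x) (hp : ∀ᶠ y in 𝓝 x, PureAt om ρ p i y (u y)) (d : ι) :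
    ∀ᶠ y in 𝓝 x, PureAt om ρ p i y (nab I e A d u y) := by
  filter_upwards [hu.ev, hp.eventually_nhds] with y h1 h2 using K.pure_nab1 L F C h1 h2 d

theorem Kah.pure_lap (K : Kah I e P Γ om) (L : LC I e P c Γ) (F : Frm I e P c)
    (C : HC I e P Γ p i ρ A) (hu : SA I u x) (hp : ∀ᶠ y in 𝓝 x, PureAt om ρ p i y (u y)) :
    PureAt om ρ p i x (lap I e g A u x) :=
  (Pure.sum _ fun a _ => (K.pure_nab1 L F C (F.sN (fun a => C.sm a x) a hu).md
    (K.pure_nab L F C hu hp a) a).add ((K.pure_nab L F C hu hp a).self_of_nhds.smul _)).neg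

/-- Harmonic pure spinors are holomorphic. -/
theorem Kah.hol_nab (K : Kah I e P Γ om) (L : LC I e P c Γ) (F : Frm I e P c)
    (C : HC I e P Γ p i ρ A) (hu : MDifferentiableAt I 𝓘(ℝ, V) u x)
    (hp : ∀ᶠ y in 𝓝 x, PureAt om ρ p i y (u y)) (hD : dir I e ρ A u x = 0) :
    Hol (fun a b => om a b x) (i x) fun a => nab I e A a u x :=
  (C.ci x).hol (K.kp x) (K.pure_nab1 L F C hu hp) (fun a => F.projN C.toCon a u x) hD

theorem Kah.dir_zero (K : Kah I e P Γ om) (L : LC I e P c Γ) (F : Frm I e P c)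
    (C : HC I e P Γ p i ρ A) (hu : MDifferentiableAt I 𝓘(ℝ, V) u x)
    (hp : ∀ᶠ y in 𝓝 x, PureAt om ρ p i y (u y))
    (hh : Hol (fun a b => om a b x) (i x) fun a => nab I e A a u x) : dir I e ρ A u x = 0 :=
  (C.ci x).cl_of_hol (K.kp x) (K.pure_nab1 L F C hu hp) (fun a => F.projN C.toCon a u x) hh

variable (I e) in
/-- Contraction of the curvature with the Kaehler form. -/
def lam (c : ι → ι → ι → M → ℝ) (om : ι → ι → M → ℝ) (A : ι → M → V →L[ℝ] V) : M → V →L[ℝ] V :=
  fun x => (1 / 2 : ℝ) • ∑ a, ∑ b, om a b x • curv I e c A a b x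

/-- Bochner-Kodaira identity for holomorphic sections: `i ∇^*∇ u = -Λ F u`. -/
theorem Kah.kodaira (K : Kah I e P Γ om) (L : LC I e P c Γ) (F : Frm I e P c) (C : UC I e P i A)
    (hg : ∀ k, g k x = ∑ a, Γ a k a x) (hu : SA I u x)
    (hh : ∀ᶠ y in 𝓝 x, Hol (fun a b => om a b y) (i y) fun a => nab I e A a u y) :
    i x (lap I e g A u x) = -lam I e c om A x (u x) := by
  have h1 := fun d => K.hol_der L F C (ξ := fun a => nab I e A a u)
    (fun a => (F.sN (fun a => C.sm a x) a hu).md) (fun a => F.projN C.toCon a u x) hh d d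
  have h2 : ∑ a, ∑ b, om a b x • hess I e Γ A b a u x = -∑ a, ∑ b, om a b x • hess I e Γ A a b u x := by
    rw [sum_comm]
    simp only [← sum_neg_distrib]
    exact sum_congr rfl fun a _ => sum_congr rfl fun b _ => by rw [(K.kp x).skew b a, neg_smul]
  have h3 : ∀ d, i x (hess I e Γ A d d u x) = ∑ b, om d b x • hess I e Γ A d b u x :=
    fun d => (h1 d).symm
  simp only [L.lap_eq F C.toCon hg, map_neg, map_sum, h3, lam, smul_apply, _root_.sum_apply,
    ← L.hess_skew F C.toCon _ _ hu, smul_sub, sum_sub_distrib, h2]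
  module

/-- On pure spinors the Weitzenboeck term is `i Λ F` up to the other type. -/
theorem Kah.inner_wK (K : Kah I e P Γ om) (C : HC I e P Γ p i ρ A) {v v' : V}
    (hc : ∀ a b, curv I e c A a b x = -curv I e c A b a x)
    (hv : ∀ a b, PureAt om ρ p i x (curv I e c A a b x v)) (hv' : PureAt om ρ p i x v') :
    ⟪wK I e c ρ A x v, v'⟫_ℝ = -⟪i x (lam I e c om A x v), v'⟫_ℝ := by
  have h1 : ∀ a b, ⟪ρ a x (ρ b x (curv I e c A a b x v)), v'⟫_ℝ
      = -(P b a x * ⟪curv I e c A a b x v, v'⟫_ℝ) - om a b x * ⟪i x (curv I e c A a b x v), v'⟫_ℝ :=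
    fun a b => by
      rw [(C.ci x).sρ a, (C.ci x).compress (K.kp x) (hv a b) hv' b a, (K.kp x).skew a b]; ring
  have h2 : ∑ a, ∑ b, P b a x * ⟪curv I e c A a b x v, v'⟫_ℝ = 0 := by
    have : ∑ a, ∑ b, P b a x * ⟪curv I e c A a b x v, v'⟫_ℝ
        = -∑ a, ∑ b, P b a x * ⟪curv I e c A a b x v, v'⟫_ℝ := by
      conv_lhs => rw [sum_comm]
      simp only [← sum_neg_distrib]
      exact sum_congr rfl fun a _ => sum_congr rfl fun b _ => by
        rw [hc b a, (K.kp x).symm a b, neg_apply, inner_neg_left, mul_neg]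
    linarith
  simp only [wK, lam, smul_apply, _root_.sum_apply, mul_apply_eq_comp, real_inner_smul_left,
    sum_inner, h1, map_smul, map_sum, sum_sub_distrib, sum_neg_distrib, h2]
  ring

theorem lap0_mul (F : Frm I e P c) {f h : M → ℝ} (hf : SA I f x) (hh : SA I h x) :
    lap0 I e g (fun y => f y * h y) x = f x * lap0 I e g h x + h x * lap0 I e g f x
      - 2 * ∑ a, dv I (e a) f x * dv I (e a) h x := by
  have h1 : ∀ a, dv I (e a) (fun y => f y * h y)
      =ᶠ[𝓝 x] fun y => dv I (e a) f y * h y + f y * dv I (e a) h y := fun a => by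
    filter_upwards [hf.ev, hh.ev] with y h1 h2
      using dv_bil (ContinuousLinearMap.mul ℝ ℝ) h1 h2
  simp only [lap0, dvg, fun a => dv_congr (e := e a) (h1 a), fun a => (h1 a).self_of_nhds,
    fun a => dv_add' (e := e a) ((F.sD a hf).mul hh) (hf.mul (F.sD a hh)),
    fun a => dv_mul (e := e a) (F.sD a hf) hh, fun a => dv_mul (e := e a) hf (F.sD a hh),
    mul_neg, mul_sum, ← sum_neg_distrib, ← sum_add_distrib, ← sum_sub_distrib]
  exact sum_congr rfl fun a _ => by ring

theorem dv_exp {v : (x : M) → TangentSpace I x} {f : M → ℝ}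
    (hf : MDifferentiableAt I 𝓘(ℝ, ℝ) f x) :
    dv I v (fun y => Real.exp (f y)) x = Real.exp (f x) * dv I v f x := by
  rw [dv_comp hf (Real.hasDerivAt_exp (f x)).hasFDerivAt]
  simp [mul_comm]

theorem sa_exp {f : M → ℝ} (hf : SA I f x) : SA I (fun y => Real.exp (f y)) x :=
  Real.contDiff_exp.contMDiff.contMDiffAt.comp x hf

theorem lap0_exp (F : Frm I e P c) {f : M → ℝ} (hf : SA I f x) :
    lap0 I e g (fun y => Real.exp (f y)) x
      = Real.exp (f x) * (lap0 I e g f x - ∑ a, dv I (e a) f x * dv I (e a) f x) := by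
  have h1 : ∀ a, dv I (e a) (fun y => Real.exp (f y))
      =ᶠ[𝓝 x] fun y => Real.exp (f y) * dv I (e a) f y := fun a => by
    filter_upwards [hf.ev] with y h1 using dv_exp h1
  simp only [lap0, dvg, fun a => dv_congr (e := e a) (h1 a), fun a => (h1 a).self_of_nhds,
    fun a => dv_mul (e := e a) (sa_exp hf) (F.sD a hf), dv_exp hf.md,
    mul_sum, ← sum_neg_distrib, ← sum_sub_distrib]
  exact sum_congr rfl fun a _ => by ring

/-- The weighted norm of a holomorphic section is a subsolution. -/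
theorem Kah.sub (k : KP (fun a b => P a b x) fun a b => om a b x) (F : Frm I e P c)
    (C : UC I e P i A) (hu : SA I u x)
    (hh : Hol (fun a b => om a b x) (i x) fun a => nab I e A a u x) {ψ : M → ℝ} (hψ : SA I ψ x)
    {κ : ℝ} (hκ : ⟪lap I e g A u x, u x⟫_ℝ ≤ -κ * ⟪u x, u x⟫_ℝ) :
    lap0 I e g (fun y => Real.exp (ψ y) * ⟪u y, u y⟫_ℝ) x
      ≤ (lap0 I e g ψ x - 2 * κ) * (Real.exp (ψ x) * ⟪u x, u x⟫_ℝ) := by
  have h1 := hh.kato k (C.ski x) (C.le x) (fun a => F.projN C.toCon a u x)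
    (fun a => dv I (e a) ψ x) (fun a => F.projD a ψ x) (u x)
  rw [lap0_mul F (sa_exp hψ) (hu.inner hu), lap0_exp F hψ, F.lap0_inner (fun a => C.sm a x)
    (fun a => Eventually.of_forall (C.sA a)) hu hu, real_inner_comm (lap I e g A u x)]
  simp only [dv_exp hψ.md, fun a => dv_inner (e := e) a (C.sA a x) hu hu,
    real_inner_comm (nab I e A _ u x) (u x)]
  have h2 : ∑ a, Real.exp (ψ x) * dv I (e a) ψ x * (⟪nab I e A a u x, u x⟫_ℝ
      + ⟪nab I e A a u x, u x⟫_ℝ)
      = Real.exp (ψ x) * (2 * ∑ a, dv I (e a) ψ x * ⟪nab I e A a u x, u x⟫_ℝ) := by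
    simp only [mul_sum]
    exact sum_congr rfl fun a _ => by ring
  rw [h2]
  have h3 := Real.exp_pos (ψ x)
  nlinarith [mul_le_mul_of_nonneg_left hκ h3.le, mul_nonneg h3.le h1]

end Crest.Agent.X212.Kah60
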